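import Vale.Agent.P365.InfB.Box

set_option linter.all false

/-!
# P365 T2 / END-EXP: deterministic part (helper439)

`‖(P_E δ_x)(y)‖² / 2 ≤ liminf_k ∫_U η_k ‖G(E' + iη_k; y, x)‖² dE'` for every open `U ∋ E`.
-/

namespace P365T2.H439

open MeasureTheory ProbabilityTheory Complex Filter Topology
open P365L P365L.Inf P365L.InfB
open scoped ENNReal InnerProductSpace

variable {V : Site → ℝ}

/-- vectors orthogonal to the eigenspace at `E` have a spectral measure without atom at `E` -/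
theorem no_atom_at {ψ : L2} {E : ℝ} (hψ : ψ ∈ (NE V E)ᗮ) {μ : Measure ℝ}
    (hμ : IsSpectralMeasure V ψ μ) : μ {E} = 0 := by
  have := hμ.finite
  set η : ℕ → ℝ := fun k => 1 / ((k : ℝ) + 1) with hηdef
  have hη : ∀ k, 0 < η k := fun k => by simp only [hηdef]; positivity
  have hη0 : Tendsto η atTop (𝓝 0) := tendsto_one_div_add_atTop_nhds_zero_nat
  set u : ℕ → L2 := fun k => (-(η k : ℂ) * I) • Res V (E + η k * I) ψ with hu
  have hub : ∀ k, ‖u k‖ ≤ ‖ψ‖ := by
    intro k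
    simp only [hu]
    have h3 : ‖(-(η k : ℂ) * I)‖ = η k := by
      rw [norm_mul, norm_neg, Complex.norm_real, Complex.norm_I, mul_one,
        Real.norm_of_nonneg (hη k).le]
    rw [norm_smul, h3]
    have h4 := res_norm_le (V := V) (hz_im E (hη k)) ψ
    have h5 : ((E : ℂ) + η k * I).im = η k := by simp
    rw [h5] at h4
    calc η k * ‖Res V (E + η k * I) ψ‖ ≤ η k * (‖ψ‖ / η k) :=
          mul_le_mul_of_nonneg_left h4 (hη k).le
      _ = ‖ψ‖ := by field_simp [(hη k).ne']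
  obtain ⟨w, hw⟩ := ExistAux.weak_lim (hyperfilter ℕ) u ‖ψ‖ hub
  have hF : (hyperfilter ℕ : Filter ℕ) ≤ atTop := Nat.hyperfilter_le_atTop
  -- inner product with ψ
  have h1 : ⟪ψ, w⟫_ℂ = ((μ.real {E} : ℝ) : ℂ) := by
    refine tendsto_nhds_unique (hw ψ) ?_
    refine ((tendsto_atom μ E η hη hη0).mono_left hF).congr fun k => ?_
    simp only [hu]
    rw [inner_smul_right, inner_res_eq_BT hμ E (hη k)]
  -- coordinates
  have hcoord : ∀ x : Site, Tendsto (fun k => u k x) (hyperfilter ℕ : Filter ℕ) (𝓝 (w x)) := by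
    intro x
    have := hw (dl x)
    simp only [inner_dl] at this
    exact this
  have hηF : Tendsto (fun k => ((η k : ℝ) : ℂ)) (hyperfilter ℕ : Filter ℕ) (𝓝 0) := by
    have h4 : Tendsto (fun k => ((η k : ℝ) : ℂ)) atTop (𝓝 ((0 : ℝ) : ℂ)) :=
      (Complex.continuous_ofReal.tendsto 0).comp hη0
    simpa using h4.mono_left hF
  have heig : IsEig V E w := by
    intro x
    have hl : Tendsto (fun k => hop (fun y => u k y) x + ((V x : ℂ) - (E + η k * I)) * u k x)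
        (hyperfilter ℕ : Filter ℕ) (𝓝 (hop (fun y => w y) x + ((V x : ℂ) - (E + 0 * I)) * w x)) := by
      refine Tendsto.add ?_ ?_
      · exact (((hcoord _).add (hcoord _)).add (hcoord _)).add (hcoord _)
      · exact (((hηF.mul_const I).const_add _).const_sub _).mul (hcoord x)
    have hr : Tendsto (fun k => (-(η k : ℂ) * I) * ψ x) (hyperfilter ℕ : Filter ℕ) (𝓝 0) := by
      have := ((hηF.neg).mul_const I).mul_const (ψ x)
      simpa using this
    have heq : ∀ k, hop (fun y => u k y) x + ((V x : ℂ) - (E + η k * I)) * u k x =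
        (-(η k : ℂ) * I) * ψ x := by
      intro k
      exact isResolvent_smul (-(η k : ℂ) * I) (res_spec V (hz_im E (hη k)) ψ) x
    simp only [heq] at hl
    have h3 := tendsto_nhds_unique hl hr
    rw [zero_mul, add_zero] at h3
    linear_combination h3
  -- orthogonality
  have hwψ : ⟪w, ψ⟫_ℂ = 0 := (Submodule.mem_orthogonal _ _).1 hψ w (mem_NE.2 heig)
  have horth : ⟪w, w⟫_ℂ = 0 := by
    refine tendsto_nhds_unique (hw w) ?_
    refine tendsto_const_nhds.congr fun k => ?_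
    simp only [hu]
    rw [inner_smul_right, inner_res_eig (hz_im E (hη k)) heig, hwψ, mul_zero, mul_zero]
  have hw0 : w = 0 := inner_self_eq_zero.1 horth
  rw [hw0, inner_zero_right] at h1
  have h5 : μ.real {E} = 0 := by exact_mod_cast h1.symm
  rw [Measure.real, ENNReal.toReal_eq_zero_iff] at h5
  rcases h5 with h5 | h5
  · exact h5
  · exact absurd h5 (measure_ne_top _ _)

/-- the rescaled resolvent of a vector orthogonal to the eigenspace tends to zero -/
theorem tendsto_res_sq {ψ : L2} {E : ℝ} (hψ : ψ ∈ (NE V E)ᗮ) (η : ℕ → ℝ) (hη : ∀ k, 0 < η k)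
    (hη0 : Tendsto η atTop (𝓝 0)) :
    Tendsto (fun k => η k ^ 2 * ‖Res V (E + η k * I) ψ‖ ^ 2) atTop (𝓝 0) := by
  obtain ⟨μ, hμ, -⟩ := exists_spectralMeasure V ψ
  have := hμ.finite
  have h0 := no_atom_at hψ hμ
  have h1 := (Complex.continuous_re.tendsto _).comp (tendsto_atom μ E η hη hη0)
  have h2 : μ.real {E} = 0 := by rw [Measure.real, h0]; rfl
  rw [Complex.ofReal_re, h2] at h1
  refine h1.congr fun k => ?_
  simp only [Function.comp_apply]
  rw [← inner_res_eq_BT hμ E (hη k)]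
  have h5 : ((-(η k : ℂ) * I) * ⟪ψ, Res V (E + η k * I) ψ⟫_ℂ).re =
      η k * (⟪ψ, Res V (E + η k * I) ψ⟫_ℂ).im := by
    simp only [mul_re, mul_im, neg_re, neg_im, ofReal_re, ofReal_im, I_re, I_im]
    ring
  rw [h5, res_energy (hz_im E (hη k))]
  have h6 : ((E : ℂ) + η k * I).im = η k := by simp
  rw [h6]
  ring

/-- comparison of the resolvent at two points at distance at most `η` -/
theorem res_near (V : Site → ℝ) {E E₀ η : ℝ} (hη : 0 < η) (h : |E - E₀| ≤ η) (ψ : L2) :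
    ‖Res V (E + η * I) ψ‖ ≤ 2 * ‖Res V (E₀ + η * I) ψ‖ := by
  rw [res_identity (hz_im E hη) (hz_im E₀ hη) ψ]
  refine (norm_add_le _ _).trans ?_
  have h1 : ‖((E : ℂ) + η * I) - (E₀ + η * I)‖ ≤ η := by
    have h2 : ((E : ℂ) + η * I) - (E₀ + η * I) = ((E - E₀ : ℝ) : ℂ) := by push_cast; ring
    rw [h2, Complex.norm_real]
    exact h
  have h2 := res_norm_le (V := V) (hz_im E hη) (Res V (E₀ + η * I) ψ)
  have h3 : ((E : ℂ) + η * I).im = η := by simp
  rw [h3] at h2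
  rw [norm_smul]
  have h4 : ‖((E : ℂ) + η * I) - (E₀ + η * I)‖ * ‖Res V (E + η * I) (Res V (E₀ + η * I) ψ)‖ ≤
      η * (‖Res V (E₀ + η * I) ψ‖ / η) :=
    mul_le_mul h1 h2 (norm_nonneg _) hη.le
  have h5 : η * (‖Res V (E₀ + η * I) ψ‖ / η) = ‖Res V (E₀ + η * I) ψ‖ := by
    field_simp
  linarith

theorem coord_le (u : L2) (y : Site) : ‖u y‖ ≤ ‖u‖ := by
  have h := norm_inner_le_norm (𝕜 := ℂ) (dl y) u
  rw [inner_dl] at h
  have h1 : ‖dl y‖ = 1 := by
    simp [dl]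
  rwa [h1, one_mul] at h

/-- **deterministic inequality**: the eigenprojection is controlled by the absorption near the
eigenvalue -/
theorem atom_le (V : Site → ℝ) (x y : Site) {E₀ : ℝ} {U : Set ℝ} (hU : IsOpen U) (hE : E₀ ∈ U)
    (η : ℕ → ℝ) (hη : ∀ k, 0 < η k) (hη0 : Tendsto η atTop (𝓝 0)) :
    ENNReal.ofReal (‖((NE V E₀).starProjection (dl x)) y‖ ^ 2 / 2) ≤
      liminf (fun k => ∫⁻ E in U, ENNReal.ofReal
        (η k * ‖(Res V (E + η k * I) (dl x)) y‖ ^ 2)) atTop := by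
  set u : L2 := (NE V E₀).starProjection (dl x) with hu
  set φ : L2 := dl x - u with hφ
  have hum : IsEig V E₀ u := mem_NE.1 (Submodule.starProjection_apply_mem (NE V E₀) (dl x))
  have hφm : φ ∈ (NE V E₀)ᗮ := Submodule.sub_starProjection_mem_orthogonal _
  have hx : dl x = u + φ := by rw [hφ]; abel
  set T : ℕ → ℝ := fun k => η k ^ 2 * ‖Res V (E₀ + η k * I) φ‖ ^ 2 with hT
  have hT0 : Tendsto T atTop (𝓝 0) := tendsto_res_sq hφm η hη hη0
  -- pointwise bound
  have key : ∀ k, ∀ E : ℝ, |E - E₀| ≤ η k → ‖u y‖ ^ 2 / 4 - 4 * T k ≤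
      η k ^ 2 * ‖(Res V (E + η k * I) (dl x)) y‖ ^ 2 := by
    intro k E hEk
    have hz := hz_im E (hη k)
    have e1 : (Res V (E + η k * I) (dl x)) y =
        ((E₀ : ℂ) - (E + η k * I))⁻¹ * u y + (Res V (E + η k * I) φ) y := by
      conv_lhs => rw [hx]
      rw [res_add hz, res_eig hz hum]
      rfl
    have e2 : ‖(Res V (E + η k * I) φ) y‖ ≤ 2 * ‖Res V (E₀ + η k * I) φ‖ :=
      (coord_le _ _).trans (res_near V (hη k) hEk φ)
    have e3 : ‖(E₀ : ℂ) - (E + η k * I)‖ ^ 2 ≤ 2 * η k ^ 2 := by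
      have h1 : (E₀ : ℂ) - (E + η k * I) = ((E₀ - E : ℝ) : ℂ) + ((-η k : ℝ) : ℂ) * I := by
        push_cast
        ring
      rw [h1, Complex.sq_norm, Complex.normSq_add_mul_I]
      have h2 : (E₀ - E) ^ 2 ≤ η k ^ 2 := by
        have h3 : |E₀ - E| ≤ η k := by rw [abs_sub_comm]; exact hEk
        have := pow_le_pow_left₀ (abs_nonneg _) h3 2
        rwa [sq_abs] at this
      nlinarith
    have hne : (E₀ : ℂ) - (E + η k * I) ≠ 0 := sub_ne hz E₀
    have hpos : 0 < ‖(E₀ : ℂ) - (E + η k * I)‖ ^ 2 := by positivity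
    have e4 : ‖u y‖ ^ 2 / (2 * η k ^ 2) ≤ ‖((E₀ : ℂ) - (E + η k * I))⁻¹ * u y‖ ^ 2 := by
      rw [norm_mul, norm_inv, mul_pow, inv_pow, ← div_eq_inv_mul]
      exact div_le_div_of_nonneg_left (sq_nonneg _) hpos e3
    -- |a + b|² ≥ |a|²/2 - |b|²
    have e5 : ‖((E₀ : ℂ) - (E + η k * I))⁻¹ * u y‖ ^ 2 / 2 - ‖(Res V (E + η k * I) φ) y‖ ^ 2 ≤
        ‖(Res V (E + η k * I) (dl x)) y‖ ^ 2 := by
      rw [e1]
      set a := ((E₀ : ℂ) - (E + η k * I))⁻¹ * u y
      set b := (Res V (E + η k * I) φ) y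
      have h1 : ‖a‖ ≤ ‖a + b‖ + ‖b‖ := by
        have := norm_sub_le (a + b) b
        rwa [add_sub_cancel_right] at this
      have h2 := norm_nonneg a
      have h3 := norm_nonneg b
      have h4 := norm_nonneg (a + b)
      nlinarith [sq_nonneg (‖a + b‖ - ‖b‖)]
    have e6 : ‖(Res V (E + η k * I) φ) y‖ ^ 2 ≤ 4 * ‖Res V (E₀ + η k * I) φ‖ ^ 2 := by
      have := pow_le_pow_left₀ (norm_nonneg _) e2 2
      nlinarith
    have hη2 : 0 < η k ^ 2 := by have := hη k; positivity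
    have e7 : η k ^ 2 * (‖u y‖ ^ 2 / (2 * η k ^ 2)) = ‖u y‖ ^ 2 / 2 := by
      have hne' := (hη k).ne'
      field_simp
    have e8 : η k ^ 2 * (‖u y‖ ^ 2 / (2 * η k ^ 2) / 2 - 4 * ‖Res V (E₀ + η k * I) φ‖ ^ 2) ≤
        η k ^ 2 * ‖(Res V (E + η k * I) (dl x)) y‖ ^ 2 :=
      mul_le_mul_of_nonneg_left (by linarith) hη2.le
    have e9 : η k ^ 2 * (‖u y‖ ^ 2 / (2 * η k ^ 2) / 2 - 4 * ‖Res V (E₀ + η k * I) φ‖ ^ 2) =
        ‖u y‖ ^ 2 / 4 - 4 * T k := by
      simp only [hT]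
      rw [mul_sub, mul_div_assoc', e7]
      ring
    rw [e9] at e8
    exact e8
  -- the window is eventually contained in `U`
  obtain ⟨r, hr, hrU⟩ := Metric.isOpen_iff.1 hU E₀ hE
  have hev : ∀ᶠ k in atTop, Set.Icc (E₀ - η k) (E₀ + η k) ⊆ U := by
    filter_upwards [hη0.eventually (gt_mem_nhds hr)] with k hk E hEk
    refine hrU ?_
    rw [Metric.mem_ball, Real.dist_eq]
    exact lt_of_le_of_lt (abs_le.2 ⟨by linarith [hEk.1], by linarith [hEk.2]⟩) hk
  -- lower bound of the integrals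
  have hlow : ∀ᶠ k in atTop, ENNReal.ofReal (‖u y‖ ^ 2 / 2 - 8 * T k) ≤
      ∫⁻ E in U, ENNReal.ofReal (η k * ‖(Res V (E + η k * I) (dl x)) y‖ ^ 2) := by
    filter_upwards [hev] with k hk
    have hηk := hη k
    have h1 : ∀ E ∈ Set.Icc (E₀ - η k) (E₀ + η k),
        ENNReal.ofReal ((‖u y‖ ^ 2 / 4 - 4 * T k) / η k) ≤
          ENNReal.ofReal (η k * ‖(Res V (E + η k * I) (dl x)) y‖ ^ 2) := by
      intro E hEk
      refine ENNReal.ofReal_le_ofReal ?_
      rw [div_le_iff₀ hηk]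
      have := key k E (abs_le.2 ⟨by linarith [hEk.1], by linarith [hEk.2]⟩)
      calc _ ≤ _ := this
        _ = _ := by ring
    calc ENNReal.ofReal (‖u y‖ ^ 2 / 2 - 8 * T k)
        = ENNReal.ofReal ((‖u y‖ ^ 2 / 4 - 4 * T k) / η k) *
            volume (Set.Icc (E₀ - η k) (E₀ + η k)) := by
          rw [Real.volume_Icc, ← ENNReal.ofReal_mul' (by linarith)]
          congr 1
          field_simp
          ring
      _ = ∫⁻ E in Set.Icc (E₀ - η k) (E₀ + η k),
            ENNReal.ofReal ((‖u y‖ ^ 2 / 4 - 4 * T k) / η k) := by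
          rw [setLIntegral_const]
      _ ≤ ∫⁻ E in Set.Icc (E₀ - η k) (E₀ + η k),
            ENNReal.ofReal (η k * ‖(Res V (E + η k * I) (dl x)) y‖ ^ 2) :=
          setLIntegral_mono' measurableSet_Icc h1
      _ ≤ _ := lintegral_mono_set hk
  have hlim : Tendsto (fun k => ENNReal.ofReal (‖u y‖ ^ 2 / 2 - 8 * T k)) atTop
      (𝓝 (ENNReal.ofReal (‖u y‖ ^ 2 / 2 - 8 * 0))) :=
    ENNReal.tendsto_ofReal ((hT0.const_mul 8).const_sub _)
  rw [mul_zero, sub_zero] at hlim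
  rw [← hlim.liminf_eq]
  exact liminf_le_liminf hlow

end P365T2.H439
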