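import Vale.Agent.P365.T2.H439.ExpLoc

set_option linter.all false

/-!
# P365 T2 / END-EXP: exponential localization from fractional moments (helper439)
-/

namespace P365T2.H439

open MeasureTheory ProbabilityTheory Complex Filter Topology
open P365L P365L.Inf P365L.InfB P365T2.H213
open scoped ENNReal InnerProductSpace

/-- exponential decay of a vector of `ℓ²(ℤ²)` -/
def ExpDec (u : L2) : Prop :=
  ∃ C c : ℝ, 0 < c ∧ ∀ y : Site, ‖u y‖ ≤ C * Real.exp (-c * (y.1.natAbs + y.2.natAbs : ℕ))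

theorem ExpDec.smul {u : L2} (h : ExpDec u) (a : ℂ) : ExpDec (a • u) := by
  obtain ⟨C, c, hc, H⟩ := h
  refine ⟨‖a‖ * C, c, hc, fun y => ?_⟩
  have h1 : (a • u) y = a * u y := rfl
  rw [h1, norm_mul, mul_assoc]
  exact mul_le_mul_of_nonneg_left (H y) (norm_nonneg _)

theorem expDec_zero : ExpDec 0 := by
  refine ⟨0, 1, one_pos, fun y => ?_⟩
  simp

theorem n1_le (x y : Site) : n1 y ≤ n1 x + n1 (y - x) := by
  unfold n1
  have h1 : y.1.natAbs ≤ x.1.natAbs + (y - x).1.natAbs := by
    have := Int.natAbs_add_le x.1 (y - x).1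
    simpa using this
  have h2 : y.2.natAbs ≤ x.2.natAbs + (y - x).2.natAbs := by
    have := Int.natAbs_add_le x.2 (y - x).2
    simpa using this
  omega

/-- decay around `x` is decay -/
theorem expDec_of_sq {u : L2} (x : Site) {C c : ℝ} (hc : 0 < c)
    (h : ∀ y, ‖u (x + y)‖ ^ 2 ≤ C * Real.exp (-c * n1 y)) : ExpDec u := by
  have hC : 0 ≤ C := by
    have h1 := (sq_nonneg _).trans (h 0)
    exact nonneg_of_mul_nonneg_left h1 (Real.exp_pos _)
  refine ⟨Real.sqrt C * Real.exp (c / 2 * n1 x), c / 2, by positivity, fun y => ?_⟩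
  have h1 := h (y - x)
  rw [add_sub_cancel] at h1
  have h2 : ‖u y‖ ≤ Real.sqrt C * Real.exp (-(c / 2) * n1 (y - x)) := by
    refine pow_le_pow_left₀ (norm_nonneg _) ?_ 1 |> fun h => by simpa using h
    refine le_of_sq_le_sq ?_ (by positivity)
    rw [mul_pow, Real.sq_sqrt hC, ← Real.exp_nat_mul]
    refine h1.trans (le_of_eq ?_)
    congr 2
    push_cast
    ring
  have h3 : Real.exp (-(c / 2) * n1 (y - x)) ≤
      Real.exp (c / 2 * n1 x) * Real.exp (-(c / 2) * (y.1.natAbs + y.2.natAbs : ℕ)) := by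
    rw [← Real.exp_add]
    refine Real.exp_le_exp.2 ?_
    have h4 : (n1 y : ℝ) ≤ n1 x + n1 (y - x) := by exact_mod_cast n1_le x y
    have h5 : ((y.1.natAbs + y.2.natAbs : ℕ) : ℝ) = n1 y := rfl
    rw [h5]
    nlinarith
  calc ‖u y‖ ≤ Real.sqrt C * Real.exp (-(c / 2) * n1 (y - x)) := h2
    _ ≤ Real.sqrt C * (Real.exp (c / 2 * n1 x) *
        Real.exp (-(c / 2) * (y.1.natAbs + y.2.natAbs : ℕ))) :=
        mul_le_mul_of_nonneg_left h3 (Real.sqrt_nonneg _)
    _ = _ := by ring

variable {Ω : Type*} [MeasurableSpace Ω] {P : Measure Ω} [IsProbabilityMeasure P]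
variable {γ : ℝ} {V : Site → Ω → ℝ}

/-- almost surely all the eigenprojections of the point vectors decay exponentially -/
theorem proj_decay (hγ : 0 < γ) (hs : BSetup P V γ) {b : ℝ} (hb : ∀ x, ∀ᵐ ω ∂P, |V x ω| ≤ b)
    (hFM : ∀ x : Site, ∀ᵐ E : ℝ, FM P (fun ω => shift x (pot V ω)) E) :
    ∀ᵐ ω ∂P, ∀ (x : Site) (E : ℝ), ExpDec ((NE (pot V ω) E).starProjection (dl x)) := by
  set η : ℕ → ℝ := fun k => 1 / ((k : ℝ) + 1) with hηdef
  have hη : ∀ k, 0 < η k := fun k => by simp only [hηdef]; positivity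
  have hη0 : Tendsto η atTop (𝓝 0) := tendsto_one_div_add_atTop_nhds_zero_nat
  have h1 : ∀ᵐ ω ∂P, ∀ (x : Site) (m : ℕ), ∃ C : ℝ, ∀ E ∈ AA P V η x m, ∀ y,
      ‖((NE (pot V ω) E).starProjection (dl x)) (x + y)‖ ^ 2 ≤
        C * Real.exp (-(1 / (2 * ((m : ℝ) + 1))) * n1 y) := by
    rw [ae_all_iff]
    intro x
    rw [ae_all_iff]
    intro m
    exact good_decay hγ hs hη hη0 x m
  have h2 : ∀ᵐ ω ∂P, ∀ (x y : Site), ∀ E ∈ {E : ℝ | ¬ ∃ m, E ∈ AA P V η x m},
      ((NE (pot V ω) E).starProjection (dl x)) (x + y) = 0 := by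
    rw [ae_all_iff]
    intro x
    rw [ae_all_iff]
    intro y
    exact null_zero hγ hs hη hη0 x (ae_iff.1 (ae_AA hγ hs x (hb x) hη hη0 (hFM x))) y
  filter_upwards [h1, h2] with ω h1 h2 x E
  by_cases h : ∃ m, E ∈ AA P V η x m
  · obtain ⟨m, hm⟩ := h
    obtain ⟨C, hC⟩ := h1 x m
    exact expDec_of_sq x (by positivity) (hC E hm)
  · have h3 : (NE (pot V ω) E).starProjection (dl x) = 0 := by
      refine lp.ext (funext fun y => ?_)
      have h4 := h2 x (y - x) E h
      rw [add_sub_cancel] at h4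
      rw [h4]
      rfl
    rw [h3]
    exact expDec_zero

/-- the exponentially decaying eigenvectors span a dense subspace -/
theorem span_top {V : Site → ℝ} (hV : EE V = ⊤)
    (h : ∀ (x : Site) (E : ℝ), ExpDec ((NE V E).starProjection (dl x))) :
    (Submodule.span ℂ {u : L2 | (∃ E : ℝ, IsEig V E u) ∧ ExpDec u}).topologicalClosure = ⊤ := by
  rw [Submodule.topologicalClosure_eq_top_iff, Submodule.eq_bot_iff]
  intro ψ hψ
  have h1 : ψ ∈ (EE V)ᗮ := by
    refine mem_orth fun E e he => ?_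
    set q : L2 := (NE V E).starProjection ψ with hq
    have hq0 : q = 0 := by
      refine lp.ext (funext fun x => ?_)
      have h2 : ⟪(NE V E).starProjection (dl x), ψ⟫_ℂ = 0 := by
        refine (Submodule.mem_orthogonal _ _).1 hψ _ (Submodule.subset_span ⟨⟨E, ?_⟩, h x E⟩)
        exact mem_NE.1 (Submodule.starProjection_apply_mem (NE V E) (dl x))
      rw [Submodule.inner_starProjection_left_eq_right, inner_dl] at h2
      exact h2
    have h3 : ⟪e, ψ⟫_ℂ = ⟪(NE V E).starProjection e, ψ⟫_ℂ := by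
      rw [Submodule.starProjection_eq_self_iff.2 (mem_NE.2 he)]
    rw [h3, Submodule.inner_starProjection_left_eq_right, ← hq, hq0, inner_zero_right]
  rw [hV, Submodule.top_orthogonal_eq_bot, Submodule.mem_bot] at h1
  exact h1

/-- if the eigenvalues are simple, then every eigenvector decays exponentially -/
theorem all_dec {V : Site → ℝ}
    (h : ∀ (x : Site) (E : ℝ), ExpDec ((NE V E).starProjection (dl x)))
    (hsimple : ∀ (E : ℝ) (x : Site) (e f : L2), IsEig V E e → IsEig V E f → e x = 0 → f x ≠ 0 →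
      e = 0) {E : ℝ} {e : L2} (he : IsEig V E e) : ExpDec e := by
  by_cases h0 : ∃ x, e x ≠ 0
  · obtain ⟨x, hx⟩ := h0
    set p : L2 := (NE V E).starProjection (dl x) with hp
    have hpm : IsEig V E p := mem_NE.1 (Submodule.starProjection_apply_mem (NE V E) (dl x))
    have h1 : ⟪p, e⟫_ℂ = e x := by
      rw [hp, Submodule.inner_starProjection_left_eq_right,
        Submodule.starProjection_eq_self_iff.2 (mem_NE.2 he), inner_dl]
    have hp0 : p ≠ 0 := by
      intro h2
      rw [h2, inner_zero_left] at h1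
      exact hx h1.symm
    have hpx : p x ≠ 0 := by
      have h2 : p x = ⟪p, p⟫_ℂ := by
        rw [← inner_dl]
        conv_rhs => rw [hp, Submodule.inner_starProjection_left_eq_right,
          Submodule.starProjection_eq_self_iff.2 (mem_NE.2 hpm)]
      rw [h2]
      exact fun h3 => hp0 (inner_self_eq_zero.1 h3)
    have h2 : IsEig V E (e - (e x / p x) • p) :=
      mem_NE.1 (Submodule.sub_mem _ (mem_NE.2 he) (Submodule.smul_mem _ _ (mem_NE.2 hpm)))
    have h3 : (e - (e x / p x) • p) x = 0 := by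
      have : (e - (e x / p x) • p) x = e x - (e x / p x) * p x := rfl
      rw [this, div_mul_cancel₀ _ hpx, sub_self]
    have h4 := hsimple E x _ p h2 hpm h3 hpx
    rw [sub_eq_zero] at h4
    rw [h4]
    exact (h x E).smul _
  · push Not at h0
    have h1 : e = 0 := lp.ext (funext fun y => h0 y)
    rw [h1]
    exact expDec_zero

/-- **Exponential localization from the fractional moments**, bounded iid potentials of bounded
density: almost surely the eigenvectors which decay exponentially span a dense subspace. -/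
theorem exploc_iid {ν : Measure ℝ} [IsProbabilityMeasure ν] {K b : ℝ} (hK0 : 0 < K)
    (hK : ν ≤ ENNReal.ofReal K • (volume : Measure ℝ)) (hV : ∀ x, Measurable (V x))
    (hi : iIndepFun V P) (hl : ∀ x, P.map (V x) = ν) (hb : ∀ x, ∀ᵐ ω ∂P, |V x ω| ≤ b)
    (h : ∀ᵐ E : ℝ, FMboxR ν E) :
    ∀ᵐ ω ∂P, EE (fun y => V y ω) = ⊤ ∧
      ∀ (x : Site) (E : ℝ), ExpDec ((NE (fun y => V y ω) E).starProjection (dl x)) := by
  have hγ : 0 < 1 / (Real.pi * K) := by
    have := Real.pi_pos
    positivity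
  have hs : BSetup P V (1 / (Real.pi * K)) := by
    refine ⟨hV, hi, fun x => ?_⟩
    rw [hl x]
    have h1 : 1 / (Real.pi * (1 / (Real.pi * K))) = K := by
      have := Real.pi_pos.ne'
      field_simp
    rw [h1]
    exact hK
  have hFM : ∀ x : Site, ∀ᵐ E : ℝ, FM P (fun ω => shift x (pot V ω)) E :=
    fun x => h.mono fun E hE => FM_of_box hV hi hl hE x
  exact (pure_point_ae hγ hs hFM).and (proj_decay hγ hs hb hFM)

end P365T2.H439
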