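import Vale.Agent.P365.T2.H439.ExpTop
import Vale.Agent.P365.T2.H213.Final

set_option linter.all false

/-!
# P365 T2 / END-EXP: the master composition with exponential localization (helper439, after
helper213's `q2_final`)
-/

namespace P365T2.H439

open MeasureTheory ProbabilityTheory Complex Filter Topology
open P365L P365L.Inf P365L.InfB P365CU P365CUL P365CUL.Inst755 P365T1.Conc P365T2.H685
open P365T2.H213
open scoped ENNReal

/-- fractional moment decay at almost every energy from the three sides -/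
theorem fm_ae_final {Q0 : ∀ (N : ℕ) [NeZero N], StW N → ℝ → (ℝ → ℝ) → ℝ → Prop} (hX : XThm Q0)
    (hK : KBind Q0) (hT : TorSmall) {lam : ℝ} (hlam : 0 < lam) :
    ∀ᵐ E : ℝ, FMboxR (scl lam uni) E := by
  have h2 : ∀ᵐ E : ℝ, E ≠ 4 + lam ∧ E ≠ -(4 + lam) := by
    have h3 : ∀ a : ℝ, ∀ᵐ E : ℝ, E ≠ a := fun a => by
      rw [ae_iff]
      simp
    exact (h3 _).and (h3 _)
  filter_upwards [h2] with E hE
  rcases lt_trichotomy |E| (4 + lam) with h | h | h
  · obtain ⟨yf, Vsf, hKT⟩ := exists_kTop hlam h
    exact fmboxR_in hT hlam h hKT (dsmall_of hX hK hlam h hKT)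
  · rcases abs_choice E with h3 | h3
    · exact absurd (h3 ▸ h) hE.1
    · exact absurd (by linarith) hE.2
  · exact fmboxR_out hlam.le h (uni_bdd hlam)

/-- **the master composition, exponential form**: pure point spectrum, simple eigenvalues and
exponentially decaying eigenvectors for the exact uniform law, every disorder -/
theorem q2exp_final {Q0 : ∀ (N : ℕ) [NeZero N], StW N → ℝ → (ℝ → ℝ) → ℝ → Prop} (hX : XThm Q0)
    (hK : KBind Q0) (hT : TorSmall) {lam : ℝ} (hlam : 0 < lam) : Q2Exp lam :=
  q2exp_of_fm hlam (fm_ae_final hX hK hT hlam)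

end P365T2.H439
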