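import Vale.Agent.P365.T2.H439.ExpFinal
import Vale.Agent.P365.T2.H213.TopOm

set_option linter.all false

/-!
# P365 T2 / END-EXP: exponential localization, every disorder, exact uniform law (helper439)
-/

namespace P365T2.H439

open MeasureTheory ProbabilityTheory Complex Filter Topology
open P365L P365L.Inf P365L.InfB P365CU P365T2.H213 P365T2.H912 P365T2.H963 P365T2.X629 P365T2.H784
open scoped ENNReal

/-- fractional moment decay in the boxes at almost every energy, every disorder -/
theorem fm_ae {lam : ℝ} (hlam : 0 < lam) : ∀ᵐ E : ℝ, FMboxR (scl lam uni) E :=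
  fm_ae_final (xthm_gen (fun lam E C1 h1 h2 h3 => ⟨FErr E C1, fun ε hε => by
      obtain ⟨η₀, hη₀, h4⟩ := P365T2.X629.err_small h3 hε
      exact ⟨η₀, hη₀, fun N _ W _ h τ hτ => h4 W η₀ hη₀ le_rfl h τ ⟨hτ.1.le, hτ.2.le⟩⟩,
      P365T2.H259.oneX_of h1 (resF h1) (omF h1 h3)⟩)
    (fun lam E C1 h1 _ h3 => P365T2.H869.uPart h1 E C1 h3)
    P365T2.H937.qPartX) P365T2.H704.kbind P365T2.H512.torSmall hlam

/-- **exponential localization at every disorder, exact uniform law, any probability space** -/
theorem goalExp.{u} : ∀ lam : ℝ, 0 < lam → ∀ {Ω : Type u} [MeasurableSpace Ω] (P : Measure Ω)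
    [IsProbabilityMeasure P] (w : Site → Ω → ℝ), (∀ x, Measurable (w x)) → iIndepFun w P →
    (∀ x, P.map (w x) = cond volume (Set.Icc (-1) 1)) →
    ∀ᵐ o ∂P, ExpLocalized (fun x => lam * w x o) := by
  intro lam hlam Ω _ P _ w hw hwi hwl
  have : IsProbabilityMeasure (scl lam uni) := by
    unfold scl
    exact Measure.isProbabilityMeasure_map (by fun_prop)
  have hm : Measurable fun t : ℝ => lam * t := measurable_id.const_mul lam
  have h1 : 0 < 1 / 2 * |lam⁻¹| := by
    have := hlam.ne'
    positivity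
  have hi : iIndepFun (fun x o => lam * w x o) P := hwi.comp (fun _ t => lam * t) fun _ => hm
  have hl : ∀ x, P.map (fun o => lam * w x o) = scl lam uni := by
    intro x
    unfold scl
    rw [← uni_eq, ← hwl x, Measure.map_map hm (hw x)]
    rfl
  have hb : ∀ x, ∀ᵐ o ∂P, |lam * w x o| ≤ lam := by
    intro x
    have h2 : ∀ᵐ t ∂(cond volume (Set.Icc (-1 : ℝ) 1)), t ∈ Set.Icc (-1 : ℝ) 1 :=
      ProbabilityTheory.ae_cond_mem measurableSet_Icc
    rw [← hwl x] at h2
    filter_upwards [ae_of_ae_map (hw x).aemeasurable h2] with o ho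
    rw [abs_mul, abs_of_pos hlam]
    exact mul_le_of_le_one_right hlam.le (abs_le.2 ho)
  exact expLocalized_iid h1 (scl_le hlam) (fun x => (hw x).const_mul lam) hi hl hb (fm_ae hlam)

end P365T2.H439
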