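import Vale.Agent.P365.T2.H439.ExpDet
import Vale.Agent.P365.T2.H213.Top0

set_option linter.all false

/-!
# P365 T2 / END-EXP: exponential decay of the eigenprojections (helper439)
-/

namespace P365T2.H439

open MeasureTheory ProbabilityTheory Complex Filter Topology
open P365L P365L.Inf P365L.InfB P365T2.H213
open scoped ENNReal InnerProductSpace

variable {Ω : Type*} [MeasurableSpace Ω] {P : Measure Ω} [IsProbabilityMeasure P]
variable {γ : ℝ} {V : Site → Ω → ℝ}

/-- single site bound -/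
theorem mean_le1 (hγ : 0 < γ) (hs : BSetup P V γ) (x y : Site) {z : ℂ} (hz : 0 < z.im) :
    ∫⁻ ω, ENNReal.ofReal (z.im * ‖(Res (pot V ω) z (dl x)) (x + y)‖ ^ 2) ∂P ≤
      ENNReal.ofReal (1 / γ) := by
  have hmV' : ∀ y, Measurable fun ω => shift x (pot V ω) y := fun y =>
    measurable_pot hs (x + y)
  have hmG : ∀ M y, Measurable fun ω => GVs M (shift x (pot V ω)) z y := fun M y =>
    measurable_GVs M (fun ω => shift x (pot V ω)) (fun _ => z) hmV' measurable_const y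
  set g : ℕ → Ω → ℝ≥0∞ := fun M ω => ENNReal.ofReal (z.im *
    ‖GVs M (shift x (pot V ω)) z y‖ ^ 2) with hg
  have hgm : ∀ M, Measurable (g M) := fun M =>
    (((hmG M y).norm.pow_const 2).const_mul _).ennreal_ofReal
  have h2 : ∀ ω, ENNReal.ofReal (z.im * ‖(Res (pot V ω) z (dl x)) (x + y)‖ ^ 2) =
      liminf (fun M => g M ω) atTop := by
    intro ω
    symm
    refine Tendsto.liminf_eq ?_
    refine ENNReal.tendsto_ofReal (Tendsto.const_mul _ ?_)
    exact (tendsto_GVs hz x y (res_spec (pot V ω) hz (dl x))).norm.pow 2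
  simp only [h2]
  refine (lintegral_liminf_le hgm).trans ?_
  refine liminf_le_of_frequently_le' (Eventually.frequently (Eventually.of_forall fun M => ?_))
  have h3 := fin_bound hγ hs x M hz {y}
  simp only [Finset.sum_singleton] at h3
  refine h3.trans ?_
  calc ENNReal.ofReal (1 / γ) * ∫⁻ ω, ENNReal.ofReal (min 1
        (2 * (4 + ‖((pot V ω x : ℝ) : ℂ) - z‖ ^ 2) *
          ‖GVs M (shift x (pot V ω)) z y‖ ^ 2)) ∂P
      ≤ ENNReal.ofReal (1 / γ) * ∫⁻ _, 1 ∂P := by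
        gcongr with ω
        rw [← ENNReal.ofReal_one]
        exact ENNReal.ofReal_le_ofReal (min_le_left _ _)
    _ = ENNReal.ofReal (1 / γ) := by simp

/-- the absorption at one site -/
noncomputable def XX (V : Site → Ω → ℝ) (x y : Site) (η : ℝ) (p : Ω × ℝ) : ℝ≥0∞ :=
  ENNReal.ofReal (η * ‖(Res (pot V p.1) (p.2 + η * I) (dl x)) (x + y)‖ ^ 2)

theorem measurable_XX (hs : BSetup P V γ) (x y : Site) {η : ℝ} (hη : 0 < η) :
    Measurable (XX V x y η) := by
  unfold XX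
  have h1 := measurable_Res (fun p : Ω × ℝ => pot V p.1) (fun p => (p.2 : ℂ) + η * I)
    (fun y => (measurable_pot hs y).comp measurable_fst)
    ((Complex.measurable_ofReal.comp measurable_snd).add_const _)
    (fun p => hz_im p.2 hη) x (x + y)
  exact ((h1.norm.pow_const 2).const_mul _).ennreal_ofReal

/-- its mean -/
noncomputable def JJ (P : Measure Ω) (V : Site → Ω → ℝ) (x y : Site) (η E : ℝ) : ℝ≥0∞ :=
  ∫⁻ ω, XX V x y η (ω, E) ∂P

theorem measurable_JJ (hs : BSetup P V γ) (x y : Site) {η : ℝ} (hη : 0 < η) :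
    Measurable (JJ P V x y η) := (measurable_XX hs x y hη).lintegral_prod_left'

theorem JJ_le (hγ : 0 < γ) (hs : BSetup P V γ) (x y : Site) {η : ℝ} (hη : 0 < η) (E : ℝ) :
    JJ P V x y η E ≤ ENNReal.ofReal (1 / γ) := by
  have h1 := mean_le1 hγ hs x y (hz_im E hη)
  have h2 : ((E : ℂ) + η * I).im = η := by simp
  rw [h2] at h1
  exact h1

/-- limsup of the mean absorption -/
noncomputable def LL (P : Measure Ω) (V : Site → Ω → ℝ) (η : ℕ → ℝ) (x y : Site) (E : ℝ) : ℝ≥0∞ :=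
  limsup (fun k => JJ P V x y (η k) E) atTop

theorem measurable_LL (hs : BSetup P V γ) {η : ℕ → ℝ} (hη : ∀ k, 0 < η k) (x y : Site) :
    Measurable (LL P V η x y) := Measurable.limsup fun k => measurable_JJ hs x y (hη k)

theorem LL_le (hγ : 0 < γ) (hs : BSetup P V γ) {η : ℕ → ℝ} (hη : ∀ k, 0 < η k) (x y : Site)
    (E : ℝ) : LL P V η x y E ≤ ENNReal.ofReal (1 / γ) :=
  limsup_le_of_le (by isBoundedDefault) (Eventually.of_forall fun k => JJ_le hγ hs x y (hη k) E)

/-- exponential decay of the mean absorption at the energies with fractional moment decay -/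
theorem LL_decay (hγ : 0 < γ) (hs : BSetup P V γ) {b : ℝ} (x : Site)
    (hb : ∀ᵐ ω ∂P, |V x ω| ≤ b) {η : ℕ → ℝ} (hη : ∀ k, 0 < η k) (hη0 : Tendsto η atTop (𝓝 0))
    {E : ℝ} (hFM : FM P (fun ω => shift x (pot V ω)) E) :
    ∃ D c₀ : ℝ, 0 < c₀ ∧ ∀ y, LL P V η x y E ≤ ENNReal.ofReal (D * Real.exp (-c₀ * n1 y)) := by
  obtain ⟨s, C, c₀, η₀, hs0, hs1, hc₀, hη₀, H⟩ := hFM
  set K : ℝ := b + |E| + 1 with hK
  set B : ℝ := (2 * (4 + K ^ 2)) ^ (s / 2) with hB
  have hB0 : 0 < B := Real.rpow_pos_of_pos (by positivity) _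
  refine ⟨1 / γ * (B * C), c₀, hc₀, fun y => ?_⟩
  refine limsup_le_of_le (by isBoundedDefault) ?_
  filter_upwards [hη0.eventually (gt_mem_nhds hη₀), hη0.eventually (gt_mem_nhds one_pos)]
    with k hk hk1
  have hz := hz_im E (hη k)
  have hzim : ((E : ℂ) + η k * I).im = η k := by simp
  have hP0 : P {ω | K < ‖((pot V ω x : ℝ) : ℂ) - (E + η k * I)‖} = 0 := by
    have h0 : ∀ᵐ ω ∂P, ¬ (K < ‖((pot V ω x : ℝ) : ℂ) - (E + η k * I)‖) := by
      filter_upwards [hb] with ω hω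
      have h1 : ‖((pot V ω x : ℝ) : ℂ) - (E + η k * I)‖ ≤ |pot V ω x| + (|E| + η k) := by
        refine (norm_sub_le _ _).trans ?_
        rw [Complex.norm_real, Real.norm_eq_abs]
        refine add_le_add le_rfl ((norm_add_le _ _).trans ?_)
        rw [Complex.norm_real, Real.norm_eq_abs, norm_mul, Complex.norm_I, mul_one,
          Complex.norm_real, Real.norm_of_nonneg (hη k).le]
      have h2 : |pot V ω x| ≤ b := hω
      push Not
      linarith
    have h3 := ae_iff.1 h0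
    simpa only [not_not] using h3
  have h1 := inf_bound hγ hs x hz {y} (K := K) hs0 hs1
    (fun y => ENNReal.ofReal (C * Real.exp (-c₀ * n1 y))) (fun y _ => H (η k) (hη k) hk.le y)
  simp only [Finset.sum_singleton] at h1
  rw [hzim, hP0, zero_add] at h1
  refine (show JJ P V x y (η k) E ≤ _ from h1).trans (le_of_eq ?_)
  rw [← ENNReal.ofReal_mul hB0.le, ← ENNReal.ofReal_mul (by positivity)]
  congr 1
  ring

/-- Fatou and reverse Fatou on a set of finite measure -/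
theorem fatou_le (hγ : 0 < γ) (hs : BSetup P V γ) {η : ℕ → ℝ} (hη : ∀ k, 0 < η k) (x y : Site)
    {U : Set ℝ} (hU : volume U ≠ ∞) :
    ∫⁻ ω, liminf (fun k => ∫⁻ E in U, XX V x y (η k) (ω, E)) atTop ∂P ≤
      ∫⁻ E in U, LL P V η x y E := by
  have hWfin : IsFiniteMeasure (volume.restrict U : Measure ℝ) :=
    ⟨by rw [Measure.restrict_apply_univ]; exact lt_top_iff_ne_top.2 hU⟩
  have hXm : ∀ k, Measurable (XX V x y (η k)) := fun k => measurable_XX hs x y (hη k)
  have hIm : ∀ k, Measurable fun ω => ∫⁻ E in U, XX V x y (η k) (ω, E) := fun k =>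
    (hXm k).lintegral_prod_right'
  have h1 : ∫⁻ ω, liminf (fun k => ∫⁻ E in U, XX V x y (η k) (ω, E)) atTop ∂P ≤
      liminf (fun k => ∫⁻ ω, (∫⁻ E in U, XX V x y (η k) (ω, E)) ∂P) atTop := lintegral_liminf_le hIm
  have h2 : ∀ k, ∫⁻ ω, (∫⁻ E in U, XX V x y (η k) (ω, E)) ∂P = ∫⁻ E in U, JJ P V x y (η k) E := by
    intro k
    exact lintegral_lintegral_swap (f := fun ω E => XX V x y (η k) (ω, E)) (hXm k).aemeasurable
  simp only [h2] at h1
  refine h1.trans ?_
  refine (liminf_le_limsup (by isBoundedDefault) (by isBoundedDefault)).trans ?_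
  refine limsup_lintegral_le (fun _ => ENNReal.ofReal (1 / γ))
    (fun k => measurable_JJ hs x y (hη k))
    (fun k => ae_of_all _ fun E => JJ_le hγ hs x y (hη k) E) ?_
  rw [lintegral_const]
  exact ENNReal.mul_ne_top ENNReal.ofReal_ne_top (measure_ne_top _ _)

theorem measurable_ZZ (hs : BSetup P V γ) {η : ℕ → ℝ} (hη : ∀ k, 0 < η k) (x y : Site)
    (U : Set ℝ) : Measurable fun ω => liminf (fun k => ∫⁻ E in U, XX V x y (η k) (ω, E)) atTop := by
  refine Measurable.liminf fun k => ?_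
  have hXm := measurable_XX hs x y (hη k)
  exact hXm.lintegral_prod_right'

/-- the good energies -/
def AA (P : Measure Ω) (V : Site → Ω → ℝ) (η : ℕ → ℝ) (x : Site) (m : ℕ) : Set ℝ :=
  {E | |E| ≤ m ∧ ∀ y, LL P V η x y E ≤
    ENNReal.ofReal (((m : ℝ) + 1) * Real.exp (-(1 / ((m : ℝ) + 1)) * n1 y))}

theorem measurableSet_AA (hs : BSetup P V γ) {η : ℕ → ℝ} (hη : ∀ k, 0 < η k) (x : Site) (m : ℕ) :
    MeasurableSet (AA P V η x m) := by
  have h1 : MeasurableSet {E : ℝ | |E| ≤ m} := measurableSet_le measurable_norm measurable_const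
  have h2 : MeasurableSet {E : ℝ | ∀ y, LL P V η x y E ≤
      ENNReal.ofReal (((m : ℝ) + 1) * Real.exp (-(1 / ((m : ℝ) + 1)) * n1 y))} := by
    rw [Set.setOf_forall]
    exact MeasurableSet.iInter fun y => measurableSet_le (measurable_LL hs hη x y) measurable_const
  exact h1.inter h2

theorem volume_AA_le (x : Site) {η : ℕ → ℝ} (m : ℕ) :
    volume (AA P V η x m) ≤ ENNReal.ofReal (2 * m) := by
  refine (measure_mono (show AA P V η x m ⊆ Set.Icc (-(m : ℝ)) m from fun E hE =>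
    abs_le.1 hE.1)).trans ?_
  rw [Real.volume_Icc]
  exact ENNReal.ofReal_le_ofReal (by linarith)

/-- almost every energy is good -/
theorem ae_AA (hγ : 0 < γ) (hs : BSetup P V γ) {b : ℝ} (x : Site)
    (hb : ∀ᵐ ω ∂P, |V x ω| ≤ b) {η : ℕ → ℝ} (hη : ∀ k, 0 < η k) (hη0 : Tendsto η atTop (𝓝 0))
    (hFM : ∀ᵐ E : ℝ, FM P (fun ω => shift x (pot V ω)) E) :
    ∀ᵐ E : ℝ, ∃ m, E ∈ AA P V η x m := by
  filter_upwards [hFM] with E hE
  obtain ⟨D, c₀, hc₀, H⟩ := LL_decay hγ hs x hb hη hη0 hE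
  obtain ⟨m, hm⟩ := exists_nat_ge (max |E| (max D (1 / c₀)))
  have h1 : |E| ≤ m := (le_max_left _ _).trans hm
  have h2 : D ≤ m := ((le_max_left _ _).trans (le_max_right _ _)).trans hm
  have h3 : 1 / c₀ ≤ m := ((le_max_right _ _).trans (le_max_right _ _)).trans hm
  refine ⟨m, h1, fun y => (H y).trans (ENNReal.ofReal_le_ofReal ?_)⟩
  have h4 : 1 / ((m : ℝ) + 1) ≤ c₀ := by
    rw [div_le_iff₀ (by positivity)]
    rw [div_le_iff₀ hc₀] at h3
    nlinarith
  have h5 : Real.exp (-c₀ * n1 y) ≤ Real.exp (-(1 / ((m : ℝ) + 1)) * n1 y) := by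
    refine Real.exp_le_exp.2 ?_
    have : (0 : ℝ) ≤ n1 y := Nat.cast_nonneg _
    nlinarith
  calc D * Real.exp (-c₀ * n1 y) ≤ ((m : ℝ) + 1) * Real.exp (-c₀ * n1 y) :=
        mul_le_mul_of_nonneg_right (by linarith) (Real.exp_pos _).le
    _ ≤ _ := mul_le_mul_of_nonneg_left h5 (by positivity)

/-- **uniform decay of the eigenprojections at good energies** -/
theorem good_decay (hγ : 0 < γ) (hs : BSetup P V γ) {η : ℕ → ℝ} (hη : ∀ k, 0 < η k)
    (hη0 : Tendsto η atTop (𝓝 0)) (x : Site) (m : ℕ) :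
    ∀ᵐ ω ∂P, ∃ C : ℝ, ∀ E ∈ AA P V η x m, ∀ y,
      ‖((NE (pot V ω) E).starProjection (dl x)) (x + y)‖ ^ 2 ≤
        C * Real.exp (-(1 / (2 * ((m : ℝ) + 1))) * n1 y) := by
  have hm0 : (0 : ℝ) < (m : ℝ) + 1 := by positivity
  have hAm := measurableSet_AA hs hη x m
  have hAv := volume_AA_le (P := P) (V := V) (η := η) x m
  have hAfin : volume (AA P V η x m) ≠ ∞ := ne_top_of_le_ne_top ENNReal.ofReal_ne_top hAv
  -- the open neighbourhoods
  have hopen : ∀ y : Site, ∃ U, AA P V η x m ⊆ U ∧ IsOpen U ∧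
      volume U ≤ volume (AA P V η x m) + ENNReal.ofReal (Real.exp (-1 * n1 y)) := by
    intro y
    obtain ⟨U, hU1, hU2, hU3⟩ := (AA P V η x m).exists_isOpen_le_add volume
      (ε := ENNReal.ofReal (Real.exp (-1 * n1 y)))
      (by simpa using Real.exp_pos _)
    exact ⟨U, hU1, hU2, hU3⟩
  choose U hAU hUo hUv using hopen
  have hUfin : ∀ y, volume (U y) ≠ ∞ := fun y =>
    ne_top_of_le_ne_top (ENNReal.add_ne_top.2 ⟨hAfin, ENNReal.ofReal_ne_top⟩) (hUv y)
  set Z : Site → Ω → ℝ≥0∞ := fun y ω =>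
    liminf (fun k => ∫⁻ E in U y, XX V x y (η k) (ω, E)) atTop with hZ
  have hZm : ∀ y, Measurable (Z y) := fun y => measurable_ZZ hs hη x y (U y)
  set D : ℝ := ((m : ℝ) + 1) * (2 * m) + 1 / γ with hD
  have hD0 : 0 ≤ D := by positivity
  have hZle : ∀ y, ∫⁻ ω, Z y ω ∂P ≤ ENNReal.ofReal (D * Real.exp (-(1 / ((m : ℝ) + 1)) * n1 y)) := by
    intro y
    refine (fatou_le hγ hs hη x y (hUfin y)).trans ?_
    have h1 : ∫⁻ E in U y, LL P V η x y E ≤
        (∫⁻ E in AA P V η x m, LL P V η x y E) + ∫⁻ E in U y \ AA P V η x m, LL P V η x y E := by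
      refine le_trans (lintegral_mono_set ?_) (lintegral_union_le _ _ _)
      intro E hE
      by_cases h : E ∈ AA P V η x m
      · exact Or.inl h
      · exact Or.inr ⟨hE, h⟩
    have h2 : ∫⁻ E in AA P V η x m, LL P V η x y E ≤
        ENNReal.ofReal (((m : ℝ) + 1) * Real.exp (-(1 / ((m : ℝ) + 1)) * n1 y)) *
          ENNReal.ofReal (2 * m) := by
      refine (setLIntegral_mono' hAm fun E hE => hE.2 y).trans ?_
      rw [setLIntegral_const]
      gcongr
    have h3 : ∫⁻ E in U y \ AA P V η x m, LL P V η x y E ≤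
        ENNReal.ofReal (1 / γ) * ENNReal.ofReal (Real.exp (-1 * n1 y)) := by
      refine (setLIntegral_mono' ((hUo y).measurableSet.diff hAm)
        fun E hE => LL_le hγ hs hη x y E).trans ?_
      rw [setLIntegral_const]
      gcongr
      rw [measure_diff (hAU y) hAm.nullMeasurableSet hAfin]
      exact tsub_le_iff_left.2 (hUv y)
    refine (h1.trans (add_le_add h2 h3)).trans ?_
    rw [← ENNReal.ofReal_mul (by positivity), ← ENNReal.ofReal_mul (by positivity),
      ← ENNReal.ofReal_add (by positivity) (by positivity)]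
    refine ENNReal.ofReal_le_ofReal ?_
    have h4 : Real.exp (-1 * n1 y) ≤ Real.exp (-(1 / ((m : ℝ) + 1)) * n1 y) := by
      refine Real.exp_le_exp.2 ?_
      have h5 : (0 : ℝ) ≤ n1 y := Nat.cast_nonneg _
      have h6 : 1 / ((m : ℝ) + 1) ≤ 1 := by
        rw [div_le_one hm0]
        have : (0 : ℝ) ≤ m := Nat.cast_nonneg _
        linarith
      nlinarith
    have h7 : 1 / γ * Real.exp (-1 * n1 y) ≤ 1 / γ * Real.exp (-(1 / ((m : ℝ) + 1)) * n1 y) :=
      mul_le_mul_of_nonneg_left h4 (by positivity)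
    calc _ ≤ ((m : ℝ) + 1) * Real.exp (-(1 / ((m : ℝ) + 1)) * n1 y) * (2 * m) +
          1 / γ * Real.exp (-(1 / ((m : ℝ) + 1)) * n1 y) := by linarith
      _ = _ := by rw [hD]; ring
  -- the weighted sum
  set w : Site → ℝ := fun y => Real.exp ((1 / (2 * ((m : ℝ) + 1))) * n1 y) with hw
  have hw0 : ∀ y, 0 < w y := fun y => Real.exp_pos _
  have hWm : Measurable fun ω => ∑' y, ENNReal.ofReal (w y) * Z y ω :=
    Measurable.ennreal_tsum fun y => (hZm y).const_mul _
  have hWle : ∫⁻ ω, ∑' y, ENNReal.ofReal (w y) * Z y ω ∂P ≠ ∞ := by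
    rw [lintegral_tsum fun y => ((hZm y).const_mul _).aemeasurable]
    have h1 : ∀ y, ∫⁻ ω, ENNReal.ofReal (w y) * Z y ω ∂P ≤
        ENNReal.ofReal (D * Real.exp (-(1 / (2 * ((m : ℝ) + 1))) * n1 y)) := by
      intro y
      rw [lintegral_const_mul _ (hZm y)]
      refine (mul_le_mul_right (hZle y) _).trans ?_
      rw [← ENNReal.ofReal_mul (hw0 y).le]
      refine ENNReal.ofReal_le_ofReal (le_of_eq ?_)
      have h2 : w y * Real.exp (-(1 / ((m : ℝ) + 1)) * n1 y) =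
          Real.exp (-(1 / (2 * ((m : ℝ) + 1))) * n1 y) := by
        simp only [hw]
        rw [← Real.exp_add]
        congr 1
        field_simp
        ring
      calc _ = D * (w y * Real.exp (-(1 / ((m : ℝ) + 1)) * n1 y)) := by ring
        _ = _ := by rw [h2]
    refine ne_top_of_le_ne_top ?_ (ENNReal.tsum_le_tsum h1)
    exact ((summable_n1 (c₀ := 1 / (2 * ((m : ℝ) + 1))) (by positivity)).mul_left D).tsum_ofReal_ne_top
  filter_upwards [ae_lt_top hWm hWle] with ω hω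
  set W : ℝ≥0∞ := ∑' y, ENNReal.ofReal (w y) * Z y ω with hW
  refine ⟨2 * W.toReal, fun E hE y => ?_⟩
  have h1 := atom_le (pot V ω) x (x + y) (hUo y) (hAU y hE) η hη hη0
  have h2 : ENNReal.ofReal (w y) * ENNReal.ofReal
      (‖((NE (pot V ω) E).starProjection (dl x)) (x + y)‖ ^ 2 / 2) ≤ W :=
    (mul_le_mul_right h1 _).trans (ENNReal.le_tsum (f := fun y => ENNReal.ofReal (w y) * Z y ω) y)
  rw [← ENNReal.ofReal_mul (hw0 y).le, ENNReal.ofReal_le_iff_le_toReal hω.ne] at h2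
  have h3 : Real.exp (-(1 / (2 * ((m : ℝ) + 1))) * n1 y) * w y = 1 := by
    simp only [hw]
    rw [← Real.exp_add]
    simp
  have h4 := mul_le_mul_of_nonneg_left h2
    (Real.exp_pos (-(1 / (2 * ((m : ℝ) + 1))) * n1 y)).le
  rw [← mul_assoc, h3, one_mul] at h4
  linarith

/-- **no eigenvalues in a null set of energies** -/
theorem null_zero (hγ : 0 < γ) (hs : BSetup P V γ) {η : ℕ → ℝ} (hη : ∀ k, 0 < η k)
    (hη0 : Tendsto η atTop (𝓝 0)) (x : Site) {N : Set ℝ} (hN : volume N = 0) (y : Site) :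
    ∀ᵐ ω ∂P, ∀ E ∈ N, ((NE (pot V ω) E).starProjection (dl x)) (x + y) = 0 := by
  have hopen : ∀ j : ℕ, ∃ U, N ⊆ U ∧ IsOpen U ∧ volume U ≤ ENNReal.ofReal (1 / ((j : ℝ) + 1)) := by
    intro j
    obtain ⟨U, hU1, hU2, hU3⟩ := N.exists_isOpen_le_add volume
      (ε := ENNReal.ofReal (1 / ((j : ℝ) + 1))) (by simpa using by positivity)
    rw [hN, zero_add] at hU3
    exact ⟨U, hU1, hU2, hU3⟩
  choose U hNU hUo hUv using hopen
  have hUfin : ∀ j, volume (U j) ≠ ∞ := fun j =>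
    ne_top_of_le_ne_top ENNReal.ofReal_ne_top (hUv j)
  set Z : ℕ → Ω → ℝ≥0∞ := fun j ω =>
    liminf (fun k => ∫⁻ E in U j, XX V x y (η k) (ω, E)) atTop with hZ
  have hZm : ∀ j, Measurable (Z j) := fun j => measurable_ZZ hs hη x y (U j)
  have hZle : ∀ j : ℕ, ∫⁻ ω, Z j ω ∂P ≤ ENNReal.ofReal (1 / γ * (1 / ((j : ℝ) + 1))) := by
    intro j
    refine (fatou_le hγ hs hη x y (hUfin j)).trans ?_
    refine (lintegral_mono fun E => LL_le hγ hs hη x y E).trans ?_
    rw [setLIntegral_const, ENNReal.ofReal_mul (by positivity)]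
    gcongr
    exact hUv j
  have hZ0 : ∫⁻ ω, ⨅ j, Z j ω ∂P = 0 := by
    refine le_antisymm ?_ bot_le
    have hlim : Tendsto (fun j : ℕ => ENNReal.ofReal (1 / γ * (1 / ((j : ℝ) + 1)))) atTop (𝓝 0) := by
      have h1 := ENNReal.tendsto_ofReal
        ((tendsto_one_div_add_atTop_nhds_zero_nat (𝕜 := ℝ)).const_mul (1 / γ))
      simpa using h1
    refine ge_of_tendsto' hlim fun j => ?_
    exact (lintegral_mono fun ω => iInf_le _ j).trans (hZle j)
  filter_upwards [(lintegral_eq_zero_iff (Measurable.iInf hZm)).1 hZ0] with ω hω E hE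
  have hω' : ⨅ j, Z j ω = 0 := hω
  have h1 : ENNReal.ofReal (‖((NE (pot V ω) E).starProjection (dl x)) (x + y)‖ ^ 2 / 2) ≤
      ⨅ j, Z j ω :=
    le_iInf fun j => atom_le (pot V ω) x (x + y) (hUo j) (hNU j hE) η hη hη0
  rw [hω', nonpos_iff_eq_zero, ENNReal.ofReal_eq_zero] at h1
  have h2 : ‖((NE (pot V ω) E).starProjection (dl x)) (x + y)‖ ^ 2 = 0 :=
    le_antisymm (by linarith) (sq_nonneg _)
  simpa using h2

end P365T2.H439
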