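import Vale.Agent.P365.T2.H439.ExpFin
import Vale.Agent.P365.T2.H737.Simple

set_option linter.all false

/-!
# P365 T2 / END-EXP: exponential localization for the exact uniform law from fractional moments
(helper439; simplicity by helper737)
-/

namespace P365T2.H439

open MeasureTheory ProbabilityTheory Complex Filter Topology
open P365L P365L.Inf P365L.InfB P365CU P365T2.H213
open scoped ENNReal

/-- **Exponential localization** of `H = hop + V` on `ℓ²(ℤ²)`: pure point spectrum (the
eigenvectors span a dense subspace), every eigenvalue is simple, and every eigenvector decays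
exponentially. -/
def ExpLocalized (V : Site → ℝ) : Prop :=
  (Submodule.span ℂ {u : L2 | ∃ E : ℝ, ∀ x : Site,
    hop (fun y => u y) x + ((V x : ℝ) : ℂ) * u x = (E : ℂ) * u x}).topologicalClosure = ⊤ ∧
  (∀ (E : ℝ) (u v : L2),
    (∀ x : Site, hop (fun y => u y) x + ((V x : ℝ) : ℂ) * u x = (E : ℂ) * u x) →
    (∀ x : Site, hop (fun y => v y) x + ((V x : ℝ) : ℂ) * v x = (E : ℂ) * v x) →
    u ≠ 0 → ∃ c : ℂ, v = c • u) ∧
  ∀ (E : ℝ) (u : L2),
    (∀ x : Site, hop (fun y => u y) x + ((V x : ℝ) : ℂ) * u x = (E : ℂ) * u x) →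
    ∃ C c : ℝ, 0 < c ∧ ∀ y : Site, ‖u y‖ ≤ C * Real.exp (-c * (y.1.natAbs + y.2.natAbs : ℕ))

/-- almost sure exponential localization at disorder `lam`, exact uniform law -/
def Q2Exp (lam : ℝ) : Prop :=
  ∀ (Ω : Type) [MeasurableSpace Ω] (P : Measure Ω) [IsProbabilityMeasure P]
    (w : Site → Ω → ℝ), (∀ x, Measurable (w x)) → iIndepFun w P →
    (∀ x, P.map (w x) = cond volume (Set.Icc (-1) 1)) →
    ∀ᵐ o ∂P, ExpLocalized (fun x => lam * w x o)

theorem q2_of_q2exp {lam : ℝ} (h : Q2Exp lam) : Q2 lam := fun Ω _ P _ w hw hwi hwl =>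
  (h Ω P w hw hwi hwl).mono fun _ ho => ho.1

/-- exponential localization for bounded iid potentials of bounded density from the fractional
moments in the boxes at almost every energy -/
theorem expLocalized_iid {Ω : Type*} [MeasurableSpace Ω] {P : Measure Ω} [IsProbabilityMeasure P]
    {V : Site → Ω → ℝ} {ν : Measure ℝ} [IsProbabilityMeasure ν] {K b : ℝ} (hK0 : 0 < K)
    (hK : ν ≤ ENNReal.ofReal K • (volume : Measure ℝ)) (hV : ∀ x, Measurable (V x))
    (hi : iIndepFun V P) (hl : ∀ x, P.map (V x) = ν) (hb : ∀ x, ∀ᵐ ω ∂P, |V x ω| ≤ b)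
    (h : ∀ᵐ E : ℝ, FMboxR ν E) :
    ∀ᵐ ω ∂P, ExpLocalized (fun y => V y ω) := by
  have hγ : 0 < 1 / (Real.pi * K) := by
    have := Real.pi_pos
    positivity
  have hs : BSetup P V (1 / (Real.pi * K)) := by
    refine ⟨hV, hi, fun x => ?_⟩
    rw [hl x]
    have h1 : 1 / (Real.pi * (1 / (Real.pi * K))) = K := by
      have := Real.pi_pos.ne'
      field_simp
    rw [h1]
    exact hK
  filter_upwards [exploc_iid hK0 hK hV hi hl hb h, P365T2.H737.simple_ae hγ hs,
    P365T2.H737.simple_span hγ hs] with ω h1 h2 h3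
  exact ⟨h1.1, fun E u v hu hv hu0 => h3 E v u hv hu hu0, fun E u hu => all_dec h1.2 h2 hu⟩

/-- **exponential localization for the exact uniform law from the fractional moments** -/
theorem q2exp_of_fm {lam : ℝ} (hlam : 0 < lam) (H : ∀ᵐ E : ℝ, FMboxR (scl lam uni) E) :
    Q2Exp lam := by
  intro Ω _ P _ w hw hwi hwl
  have : IsProbabilityMeasure (scl lam uni) := by
    unfold scl
    exact Measure.isProbabilityMeasure_map (by fun_prop)
  have hm : Measurable fun t : ℝ => lam * t := measurable_id.const_mul lam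
  have h1 : 0 < 1 / 2 * |lam⁻¹| := by
    have := hlam.ne'
    positivity
  have hi : iIndepFun (fun x o => lam * w x o) P := hwi.comp (fun _ t => lam * t) fun _ => hm
  have hl : ∀ x, P.map (fun o => lam * w x o) = scl lam uni := by
    intro x
    unfold scl
    rw [← uni_eq, ← hwl x, Measure.map_map hm (hw x)]
    rfl
  have hb : ∀ x, ∀ᵐ o ∂P, |lam * w x o| ≤ lam := by
    intro x
    have h2 : ∀ᵐ t ∂(cond volume (Set.Icc (-1 : ℝ) 1)), t ∈ Set.Icc (-1 : ℝ) 1 :=
      ProbabilityTheory.ae_cond_mem measurableSet_Icc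
    rw [← hwl x] at h2
    filter_upwards [ae_of_ae_map (hw x).aemeasurable h2] with o ho
    rw [abs_mul, abs_of_pos hlam]
    exact mul_le_of_le_one_right hlam.le (abs_le.2 ho)
  exact expLocalized_iid h1 (scl_le hlam) (fun x => (hw x).const_mul lam) hi hl hb H

theorem q2exp_of_small {lam c p : ℝ} (hlam : 0 < lam) (hc : 0 < c) (hp : 0 < p) (hp4 : p < 1 / 4)
    (H : SmallAll lam c p) : Q2Exp lam :=
  q2exp_of_fm hlam (fmboxR_ae hlam hc hp hp4 H)

end P365T2.H439
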